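import Crest.Agent.X212.Lix26.Defs
import Crest.Agent.X212.Cay24.Qa
import Crest.Agent.X212.Qa50.Add
import Crest.Agent.X212.Clr59.Pr
import Crest.Agent.X212.Loc8.Thin

/-!
# Row 212, LIX-TW (helper40): twisting an abelian point by a clutching function
-/

set_option autoImplicit false
set_option linter.unusedSectionVars false
noncomputable section
open scoped Manifold ContDiff Topology InnerProductSpace
open MeasureTheory Set Function Filter Real
open Crest.Agent.R208.F (Ext)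

namespace Crest.Agent.X212.Tw40
open An Nd18 Wz78 Pj41 Qab60 Sob92
open Num57 hiding c1 c2
open Dr59 (dM Dg)
open Abel74 (fm fF RedOn)
open Eqv71 (cj opL_cj)
open Clr59 (gx br)
open Line51 (ang CSm)

variable {E : Type} [NormedAddCommGroup E] [NormedSpace ℝ E] [FiniteDimensional ℝ E]
  [MeasurableSpace E] [BorelSpace E]
  {HM : Type} [TopologicalSpace HM] {I : ModelWithCorners ℝ E HM} [I.Boundaryless]
  {M : Type} [TopologicalSpace M] [ChartedSpace HM M] [IsManifold I ∞ M] [T2Space M]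
  [MeasurableSpace M] [BorelSpace M] [SecondCountableTopology M]
  {ι : Type} [Fintype ι] {lam : Type} [Fintype lam] {B : Base M ι lam} {G : Geo I M ι lam}
  {Ω U : Set M} {x : M}

section ada
variable {r : ℕ} {c : Cfg M ι lam r} {ξ : M → c.m.A} {a : M → Ext E}

theorem ada_W (F : Fr I M ι) (i : ι) (x : M) :
    ((ada F c ξ a).W : c.m.Cn) i x = c.W i x + k1 F a i x • opL (ξ x) :=
  congrArg (c.W i x + ·) (map_smul opL _ (ξ x))

theorem ada_red (R : RedOn G.F c.m c.W U ξ) : RedOn G.F c.m (ada G.F c ξ a).W U ξ :=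
  ⟨R.sm, R.mem, R.sq, fun x hx i => by
    refine Eq.trans ?_ (R.par x hx i)
    change _ + adc (c.W i x + opL (k1 G.F a i x • ξ x)) (ξ x) = _ + adc (c.W i x) (ξ x)
    simp only [adc_apply, map_smul, add_mul, mul_add, smul_mul_assoc, mul_smul_comm,
      add_sub_add_right_eq_sub]⟩

variable (hB : B.OK I) (hG : G.OK B) (hΩ : IsClopen Ω) (h : Ab B G Ω c ξ) (hU : IsOpen U)
  (hs : U ⊆ Ω) (ha : Dr59.Sm I U a) (hd : Dg 1 U a)
include hB hG hΩ h hU hs ha hd

theorem ada_loc (hx : x ∈ U) : ∃ W : c.m.Cn, c.m.IsConn B G W ∧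
    (∀ᶠ y in 𝓝 x, ∀ i, (ada G.F c ξ a).W i y = W i y) ∧
    fm G.F c.m W ξ x = fm G.F c.m c.W ξ x + dM I a x := by
  obtain ⟨a', h1, -, h2, h3⟩ := Loc8.exists_fo (isCompact_singleton (x := x)) hU
    (singleton_subset_iff.2 hx) ha hd
  obtain ⟨k, k'⟩ := (Qa50.addStmt I M ι lam r B G Ω c ξ hB hG hΩ h).1 a' h1 fun y hy =>
    image_eq_zero_of_notMem_tsupport fun k => hy (hs (h2 k))
  have e := h3 x rfl
  refine ⟨_, k.adm.conn, e.mono fun y hy i => ?_, ?_⟩
  · exact congrArg (fun t => c.W i y + opL (e1 t (ee G.F y i) • ξ y)) hy.symm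
  · rw [k', Pi.add_apply, Dr59.dM_congr e]

theorem ada_conn : ConnOn B G c.m (ada G.F c ξ a).W (U ∪ Ωᶜ) := ConnOn.of_local fun x hx => by
  rcases hx with hx | hx
  · obtain ⟨W, h1, h2, -⟩ := ada_loc hB hG hΩ h hU hs ha hd hx
    exact ⟨{y | ∀ᶠ z in 𝓝 y, ∀ i, (ada G.F c ξ a).W i z = W i z}, h2, (IsConn.on h1 _).congr
      isOpen_setOfPred_eventually_nhds fun i y hy => hy.self_of_nhds i⟩
  · exact ⟨Ωᶜ, hx, (IsConn.on h.adm.conn _).congr hΩ.compl.isOpen fun i y hy => by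
      rw [ada_W, h.rd.off y hy, map_zero, smul_zero, add_zero]⟩

theorem ada_fm (hx : x ∈ U) :
    fm G.F c.m (ada G.F c ξ a).W ξ x = fm G.F c.m c.W ξ x + dM I a x := by
  obtain ⟨W, -, h2, h3⟩ := ada_loc hB hG hΩ h hU hs ha hd hx
  have k : c.m.Fg G.F (ada G.F c ξ a).W x = c.m.Fg G.F W x :=
    Loc66.Fg_congr fun i => h2.mono fun y hy => hy i
  rw [← h3]
  simp only [Abel74.fm, fm2_apply, fF, k]

end ada

section clutch
variable {m : Md M ι lam} {W W' : m.Cn} {ξ : M → m.A} {t : M → ℝ}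

theorem sa_gx (H : m.OK I B) (hξ : SA I ξ x) (ht : SA I t x) : SA I (gx m ξ t) x :=
  (SA.smul ((contDiff_cos.contMDiff _).comp x ht) (H.sp x)).add
    (SA.smul ((contDiff_sin.contMDiff _).comp x ht) (SA.clm opL hξ))

theorem gx_iso (H : m.OK I B) (g : ξ x ∈ m.gS x) (sq : opL (ξ x) * opL (ξ x) = -m.p x) :
    CIso (gx m ξ t x) (m.p x) (m.p x) := by
  have e : Pj41.ad (gx m ξ t x) = cos (t x) • m.p x - sin (t x) • opL (ξ x) := by
    rw [gx, ad_add, ad_smul, ad_smul, ad_symm.2 (H.psym x), ad_skew.2 (g_skw g), smul_neg,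
      sub_eq_add_neg]
  have k := cos_sq_add_sin_sq (t x)
  refine ⟨?_, ?_, ?_⟩ <;> (try rw [e]) <;>
    simp only [gx, ← ContinuousLinearMap.mul_def, add_mul, mul_add, sub_mul, mul_sub, smul_mul_assoc,
      mul_smul_comm, H.pidem, g_p g, g_p' H g, sq]
  · linear_combination (norm := module) k • m.p x
  · linear_combination (norm := module) k • m.p x

theorem gx_cm {T : En (Fin m.N)} (h1 : T * m.p x = m.p x * T) (h2 : T * opL (ξ x) = opL (ξ x) * T) :
    T ∘L gx m ξ t x = gx m ξ t x ∘L T := by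
  simp only [gx, ← ContinuousLinearMap.mul_def, add_mul, mul_add, smul_mul_assoc, mul_smul_comm, h1, h2]

theorem gx_par (H : m.OK I B) (C : ConnOn B G m W U) (R : RedOn G.F m W U ξ) (hx : x ∈ U)
    (ht : SA I t x) (a : ι) (e : W a x = W' a x + G.F.D a t x • opL (ξ x)) :
    G.F.D a (gx m ξ t) x + W' a x ∘L gx m ξ t x - gx m ξ t x ∘L W a x = 0 := by
  have s1 : SA I (fun y => cos (t y)) x := (contDiff_cos.contMDiff _).comp x ht
  have s2 : SA I (fun y => sin (t y)) x := (contDiff_sin.contMDiff _).comp x ht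
  have s3 : SA I (fun y => opL (ξ y)) x := SA.clm opL (R.sm x hx)
  have p1 := C.par a x hx
  have p2 : dv I (G.F.e a) (fun y => opL (ξ y)) x + (W a x * opL (ξ x) - opL (ξ x) * W a x) = 0 :=
    (opL_nab a (R.sm x hx)).trans (by rw [R.par x hx, map_zero])
  have d1 : dv I (G.F.e a) (fun y => cos (t y)) x = -sin (t x) * G.F.D a t x :=
    (dv_comp ht.md (hasDerivAt_cos _).hasFDerivAt).trans (by simp [mul_comm, Pre.D_def])
  have d2 : dv I (G.F.e a) (fun y => sin (t y)) x = cos (t x) * G.F.D a t x :=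
    (dv_comp ht.md (hasDerivAt_sin _).hasFDerivAt).trans (by simp [mul_comm, Pre.D_def])
  rw [Pre.D_def] at p1 ⊢
  rw [show gx m ξ t = fun y => cos (t y) • m.p y + sin (t y) • opL (ξ y) from rfl,
    dv_add' (SA.smul s1 (H.sp x)) (SA.smul s2 s3), dv_smul s1.md (SA.md (H.sp x)),
    dv_smul s2.md s3.md, eq_sub_of_add_eq e.symm, eq_neg_of_add_eq_zero_left p1,
    eq_neg_of_add_eq_zero_left p2]
  simp only [d1, d2, ← ContinuousLinearMap.mul_def, mul_add, add_mul, sub_mul, mul_smul_comm,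
    smul_mul_assoc, R.sq x hx, g_p' H (R.mem x hx)]
  module

theorem cj_gx (H : m.OK I B) (g : ξ x ∈ m.gS x) (sq : opL (ξ x) * opL (ξ x) = -m.p x) :
    cj (gx m ξ t x) (ξ x) = ξ x := opL_inj (by
  rw [opL_cj, ← ad_trn, ← ContinuousLinearMap.comp_assoc,
    ← gx_cm ((g_p' H g).trans (g_p g).symm) rfl, ContinuousLinearMap.comp_assoc,
    (gx_iso H g sq).tgt]
  exact g_p' H g)

end clutch

/-- the twist, with the sign and the outside -/
theorem tw1 {r : ℕ} {c : Cfg M ι lam r} {ξ : M → c.m.A} {O : Bool → Set M} {e : M → Circle}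
    {A : Bool → M → Ext E} (hB : B.OK I) (hG : G.OK B) (hΩ : IsClopen Ω) (h : Ab B G Ω c ξ)
    (hO : ∀ b, IsOpen (O b)) (hc : O false ∪ O true = Ω)
    (hA : ∀ b, Dr59.Sm I (O b) (A b) ∧ Dg 1 (O b) (A b))
    (he : ∀ x ∈ O false ∩ O true, CSm I e x ∧ A true x = A false x + ang I e x) :
    ∃ (c' : Cfg M ι lam r) (ξ' : M → c'.m.A) (v : Bool → M → CL c.m.V c'.m.V), Ab B G Ω c' ξ' ∧
      Lix26.Twi G.F O e A c ξ c' ξ' v 1 ∧ Tmp64.Eq0 G.F c c' Ωᶜ (v false) := by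
  classical
  have := Sob92.scs (I := I) (M := M)
  have H := h.adm.ok
  have R := h.rd
  have hs : ∀ b, O b ⊆ Ω := fun b => hc ▸ by cases b; exacts [subset_union_left, subset_union_right]
  have C := fun b => ada_conn hB hG hΩ h (hO b) (hs b) (hA b).1 (hA b).2
  have Rb : ∀ b, RedOn G.F c.m (ada G.F c ξ (A b)).W (O b) ξ := fun b => ada_red (R.toRedOn.mono (hs b))
  have o2 := (hO false).union hΩ.compl.isOpen
  have ov : ∀ x ∈ O true ∩ (O false ∪ Ωᶜ), x ∈ O false ∩ O true := fun x hx =>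
    ⟨hx.2.resolve_right (not_not.2 (hs _ hx.1)), hx.1⟩
  have eg : ∀ s, gx c.m ξ (fun y => br s (e y)) = gx c.m ξ fun y => br 0 (e y) := fun s => funext fun y => by
    have k := (Clr59.exp_br s (e y)).trans (Clr59.exp_br 0 (e y)).symm
    obtain ⟨n, k⟩ := Circle.exp_eq_exp.1 k
    simp only [gx, k, cos_add_int_mul_two_pi, sin_add_int_mul_two_pi]
  have sθ := fun x hx => Clr59.sa_br (he x hx).1 (Clr59.mem_arc _)
  obtain ⟨n, a, a', X, h1, h2, h3, h4, h5, h6, h7⟩ := Loc66.glue2 (u := gx c.m ξ fun y => br 0 (e y))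
    (hO true) o2 (fun x => (em (x ∈ Ω)).elim (fun k => (hc.ge k).elim (fun k => .inr (.inl k)) .inl)
      fun k => .inr (.inr k)) (OK.on H _) (OK.on H _) hG.P ((C true).mono subset_union_left) (C false)
    ⟨fun x hx => eg _ ▸ sa_gx H (R.sm x (hs _ hx.1)) (sθ x (ov x hx)),
      fun x hx => gx_iso H (R.mem x (hs _ hx.1)) (R.sq x (hs _ hx.1)),
      fun x hx => gx_cm (H.Jp x) (g_J (R.mem x (hs _ hx.1))),
      fun x hx b => gx_cm (((H.cl x).pr b).trans ((H.cl x).pl b).symm) (g_ρ (R.mem x (hs _ hx.1)) b),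
      fun x hx s => gx_cm (((OK.on H univ).jp trivial s).trans (H.pj x s).symm)
        (g_j (R.mem x (hs _ hx.1)) s)⟩
    fun x hx i => eg _ ▸ gx_par H ((C true).mono subset_union_left) (Rb true) hx.1 (sθ x (ov x hx)) i (by
      rw [ada_W, ada_W, Clr59.D_br _ (sθ x (ov x hx)), ← Clr59.c1_ang _ (he x (ov x hx)).1, add_assoc,
        ← add_smul, k1, (he x (ov x hx)).2, e1_add]
      rfl)
  obtain ⟨v, v0, v1⟩ : ∃ v : Bool → M → CL c.m.V n.V, v false = a' ∧ v true = a :=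
    ⟨fun b => cond b a a', rfl, rfl⟩
  subst v0 v1
  have i : ∀ b, Iso0 I c.m n (O b) (v b) ∧ Par0 G.F (ada G.F c ξ (A b)).W X (O b) (v b) := fun b => by
    cases b; exacts [⟨h4.mono subset_union_left, h6.mono subset_union_left⟩, ⟨h3, h5⟩]
  obtain ⟨η, e0, e1⟩ : ∃ η : M → n.A, (∀ x ∉ Ω, η x = 0) ∧ ∀ b, ∀ x ∈ O b, η x = cj (v b x) (ξ x) := by
    refine ⟨(O true).piecewise (fun x => cj (v true x) (ξ x)) fun x => cj (v false x) (ξ x),
      fun x hx => ?_, fun b x hx => ?_⟩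
    · rw [piecewise_eq_of_notMem _ _ _ fun k => hx (hs _ k), R.off x hx, map_zero]
    by_cases k : x ∈ O true
    · rw [piecewise_eq_of_mem _ _ _ k]
      cases b
      · rw [← h7 x ⟨k, .inl hx⟩, ← Eqv71.cj_cj, cj_gx H (R.mem x (hs _ k)) (R.sq x (hs _ k))]
      · rfl
    · cases b; exacts [piecewise_eq_of_notMem _ _ _ k, (k hx).elim]
  have k := fun b => Cay24.redOn_iso (i b).1 (OK.on H _) (OK.on h1 _) ((C b).mono subset_union_left)
    (IsConn.on h2 _) (i b).2 (Rb b)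
  have ev : ∀ b, ∀ x ∈ O b, η =ᶠ[𝓝 x] fun x => cj (v b x) (ξ x) := fun b x hx =>
    mem_of_superset ((hO b).mem_nhds hx) (e1 b)
  have ex : ∀ x ∈ Ω, ∃ b, x ∈ O b := fun x hx => (hc.ge hx).elim (⟨_, ·⟩) (⟨_, ·⟩)
  have z : ∀ x ∈ Ω, v false x (c.Φ x) = 0 := fun x hx => by rw [h.z x hx, map_zero]
  refine ⟨⟨n, X, fun x => v false x (c.Φ x), c.z⟩, η, v, ⟨⟨h1, h2, fun x => ?_, fun x => ?_, h.adm.z⟩,
    ⟨⟨fun x hx => ?_, fun x hx => ?_, fun x hx => ?_, fun x hx j => ?_⟩, hΩ.isOpen, e0⟩, z⟩,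
    ⟨.inl rfl, fun b => ⟨(i b).1, (i b).2⟩, e1, fun x hx => ?_, fun b x hx => ?_⟩,
    h4.mono subset_union_right, fun x hx j => ?_, fun _ _ => rfl, rfl⟩
  · by_cases hx : x ∈ Ω
    · exact (contMDiffAt_const (c := 0)).congr_of_eventuallyEq (mem_of_superset (hΩ.isOpen.mem_nhds hx) z)
    · exact (h4.su x (.inr hx)).clm_apply (h.adm.sm x)
  · change n.pp B x (v false x (c.Φ x)) = v false x (c.Φ x)
    by_cases hx : x ∈ Ω
    · rw [z x hx, map_zero]
    · rw [← ContinuousLinearMap.comp_apply, Cay24.iso_pp h4 (.inr hx), ContinuousLinearMap.comp_apply,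
        h.adm.pos x]
  · obtain ⟨b, hb⟩ := ex x hx
    exact ((k b).sm x hb).congr_of_eventuallyEq (ev b x hb)
  · obtain ⟨b, hb⟩ := ex x hx
    exact e1 b x hb ▸ (k b).mem x hb
  · obtain ⟨b, hb⟩ := ex x hx
    exact e1 b x hb ▸ (k b).sq x hb
  · obtain ⟨b, hb⟩ := ex x hx
    exact (nab_congr j (ev b x hb)).trans ((k b).par x hb j)
  · have q := congrArg (fun z : Circle => (z : ℂ)) (Clr59.exp_br 0 (e x))
    rw [← h7 x ⟨hx.2, .inl hx.1⟩, zpow_one, csE, ← q, Circle.coe_exp, Complex.exp_ofReal_mul_I_re,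
      Complex.exp_ofReal_mul_I_im, gx]
    simp only [ContinuousLinearMap.comp_add, ContinuousLinearMap.comp_smul, ((i false).1.iso x hx.1).idem]
    rfl
  · rw [← ada_fm hB hG hΩ h (hO b) (hs b) (hA b).1 (hA b).2 hx]
    simp only [Abel74.fm, fm2_apply, fF, e1 b x hx, Loc66.Fg_loc (i b).1 (hO b) (OK.on H _) (OK.on h1 _)
      (((C b).mono subset_union_left).sm · x hx) (h2.cc.sm · x) (i b).2 hx,
      Loc66.inner_cj_g (i b).1 hx _ (R.mem x (hs b hx))]
  · have := h6 x (.inr hx) j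
    rwa [ada_W, R.off x hx, map_zero, smul_zero, add_zero] at this

variable (I M ι lam) in
/-- **LIX-TW** -/
theorem tw : Lix26.TwStmt I M ι lam := fun _ _ _ _ _ _ _ _ _ hB hG hΩ h hO hc hA he =>
  let ⟨c, ξ, v, h1, h2, _⟩ := tw1 hB hG hΩ h hO hc hA he
  ⟨c, ξ, v, 1, h1, h2⟩

end Crest.Agent.X212.Tw40
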